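import Mathlib

namespace Vale.Agent.P314

open MonoidAlgebra Finset

variable {K : Type*} [Field K] {ι : Type*} [Fintype ι] [DecidableEq ι]

abbrev NC (K : Type*) [Field K] (ι : Type*) := MonoidAlgebra K (FreeMonoid ι)

/-- left derivative -/
noncomputable def D (i : ι) : NC K ι →ₗ[K] NC K ι :=
  (coeffLinearEquiv K).symm.toLinearMap ∘ₗ
    Finsupp.lcomapDomain (fun w => FreeMonoid.of i * w) (mul_right_injective _) ∘ₗ
    (coeffLinearEquiv K).toLinearMap

omit [Fintype ι] [DecidableEq ι] in
lemma D_coeff (i : ι) (g : NC K ι) (w : FreeMonoid ι) :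
    (D i g).coeff w = g.coeff (FreeMonoid.of i * w) := rfl

omit [Fintype ι] [DecidableEq ι] in
lemma D_one (i : ι) (a : K) : D i (single 1 a : NC K ι) = 0 := by
  ext w
  rw [D_coeff, coeff_single, Finsupp.single_eq_of_ne]
  · simp
  · intro h
    simpa using congrArg FreeMonoid.length h

omit [Fintype ι] in
lemma D_cons (i j : ι) (w : FreeMonoid ι) (a : K) :
    D i (single (FreeMonoid.of j * w) a : NC K ι) = if i = j then single w a else 0 := by
  classical
  ext v
  rw [D_coeff, coeff_single]
  split_ifs with h
  · subst h; simp [Finsupp.single_apply]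
  · rw [Finsupp.single_eq_of_ne]
    · simp
    · intro h'
      have := congrArg FreeMonoid.toList h'
      simp at this
      exact h this.1

omit [Fintype ι] in
lemma D_mul (i : ι) (f g : NC K ι) : D i (f * g) = D i f * g + f.coeff 1 • D i g := by
  induction f using MonoidAlgebra.induction_linear with
  | zero => simp
  | add f₁ f₂ h₁ h₂ => simp only [add_mul, map_add, h₁, h₂, coeff_add, Finsupp.add_apply, add_smul]; abel
  | single w a =>
    induction w using FreeMonoid.casesOn with
    | one =>
      rw [D_one, zero_mul, zero_add, coeff_single, Finsupp.single_eq_same, ← map_smul]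
      congr 1
      ext v; simp [coeff_single_one_mul]
    | of_mul j w =>
      have : (single (FreeMonoid.of j * w) a : NC K ι).coeff 1 = 0 := by
        rw [coeff_single, Finsupp.single_eq_of_ne]
        intro h
        have := congrArg FreeMonoid.length h
        simp at this; omega
      rw [this, zero_smul, add_zero, D_cons]
      induction g using MonoidAlgebra.induction_linear with
      | zero => simp
      | add g₁ g₂ h₁ h₂ => simp only [mul_add, map_add, h₁, h₂]
      | single v b =>
        rw [single_mul_single, mul_assoc, D_cons]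
        split_ifs
        · rw [single_mul_single]
        · simp

variable (σ : K →+* K) (r : ι → K)

noncomputable def Th (g : NC K ι) : NC K ι :=
  mapRingHom _ σ g + ∑ i, r i • D i (mapRingHom _ σ g)

omit [DecidableEq ι] in
lemma Th_coeff (g : NC K ι) (w : FreeMonoid ι) :
    (Th σ r g).coeff w = σ (g.coeff w) + ∑ i, r i * σ (g.coeff (FreeMonoid.of i * w)) := by
  simp [Th, coeff_sum, D_coeff, coeff_mapRingHom, Finsupp.finsetSum_apply]

omit [DecidableEq ι] in
lemma Th_add (f g : NC K ι) : Th σ r (f + g) = Th σ r f + Th σ r g := by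
  ext w; simp [Th_coeff, mul_add, sum_add_distrib]; ring

omit [DecidableEq ι] in
lemma Th_smul (c : K) (g : NC K ι) : Th σ r (c • g) = σ c • Th σ r g := by
  ext w; simp [Th_coeff, mul_add, mul_sum, mul_left_comm]

omit [DecidableEq ι] in
lemma Th_zero : Th σ r 0 = 0 := by simp [Th]

def Indep : Prop :=
  ∀ (c : ι → K) (g : K), (∀ i, σ (c i) = c i) → σ g - g + ∑ i, r i * c i = 0 → ∀ i, c i = 0

variable {σ r}

omit [DecidableEq ι] in
lemma free (hP : Indep σ r) (W : Submodule K (NC K ι)) (h0 : ∀ g ∈ W, g.coeff 1 = 0)
    (hT : ∀ g ∈ W, Th σ r g ∈ W) : ∀ g ∈ W, g = 0 := by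
  classical
  have key : ∀ k : ℕ, ∀ g ∈ W, (∀ w : FreeMonoid ι, k ≤ w.length → g.coeff w = 0) → g = 0 := by
    intro k
    induction k with
    | zero => intro g _ h; ext w; simpa using h w (Nat.zero_le _)
    | succ k ih =>
      intro g
      induction hc : (g.coeff.support.filter fun w => w.length = k).card using
        Nat.strong_induction_on generalizing g with
      | _ m ihm =>
      intro hg h
      by_cases hz : ∀ w : FreeMonoid ι, w.length = k → g.coeff w = 0
      · refine ih g hg fun w hw => ?_
        rcases hw.eq_or_lt with e | e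
        exacts [hz w e.symm, h w e]
      exfalso
      push Not at hz
      obtain ⟨w0, hw0, hne⟩ := hz
      set g' := (g.coeff w0)⁻¹ • g with hg'
      have m' : g' ∈ W := W.smul_mem _ hg
      have c' : ∀ w, g'.coeff w = (g.coeff w0)⁻¹ * g.coeff w := fun w => by simp [hg']
      have top : ∀ w : FreeMonoid ι, k ≤ w.length →
          (Th σ r g' - g').coeff w = σ (g'.coeff w) - g'.coeff w := fun w hw => by
        rw [coeff_sub, Finsupp.sub_apply, Th_coeff, sum_eq_zero, add_zero]
        intro i _
        rw [c', h (FreeMonoid.of i * w) (by simp; omega)]; simp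
      have z : Th σ r g' - g' = 0 := by
        refine ihm _ ?_ _ rfl (W.sub_mem (hT _ m') m') fun w hw => ?_
        · rw [← hc]
          refine card_lt_card ⟨fun w hw => ?_, fun hs => ?_⟩
          · rw [mem_filter, Finsupp.mem_support_iff] at hw ⊢
            refine ⟨fun e => hw.1 ?_, hw.2⟩
            rw [top w hw.2.ge, c', e]; simp
          · have := hs (mem_filter.2 ⟨Finsupp.mem_support_iff.2 hne, hw0⟩)
            rw [mem_filter, Finsupp.mem_support_iff, top w0 hw0.ge, c', inv_mul_cancel₀ hne] at this
            simp at this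
        · rw [top w (by omega), c', h w hw]; simp
      induction w0 using FreeMonoid.casesOn with
      | one => exact hne (h0 g hg)
      | of_mul i w =>
        have fix : ∀ j, σ (g'.coeff (FreeMonoid.of j * w)) = g'.coeff (FreeMonoid.of j * w) :=
          fun j => by
            have := top (FreeMonoid.of j * w) (by rw [← hw0]; simp)
            rw [z] at this
            exact sub_eq_zero.1 (by simpa using this.symm)
        have e := congrArg (fun x : NC K ι => x.coeff w) z
        simp only [coeff_sub, Finsupp.sub_apply, Th_coeff, fix, coeff_zero, Finsupp.zero_apply] at e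
        have := hP _ (g'.coeff w) fix (by linear_combination e) i
        rw [c', inv_mul_cancel₀ hne] at this
        exact one_ne_zero this
  intro g hg
  refine key (g.coeff.support.sup FreeMonoid.length + 1) g hg fun w hw => ?_
  by_contra h
  have := le_sup (f := FreeMonoid.length) (Finsupp.mem_support_iff.2 h)
  omega

variable (σ r) in
noncomputable def WW (V : Submodule K (NC K ι)) : ℕ → Submodule K (NC K ι)
  | 0 => V
  | N + 1 =>
    { carrier := {g | g ∈ V ∧ g.coeff 1 = 0 ∧ Th σ r g ∈ WW V N}
      add_mem' := fun {a b} ha hb => ⟨V.add_mem ha.1 hb.1, by simp [ha.2.1, hb.2.1], by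
        rw [Th_add]; exact Submodule.add_mem _ ha.2.2 hb.2.2⟩
      zero_mem' := ⟨V.zero_mem, by simp, by rw [Th_zero]; exact Submodule.zero_mem _⟩
      smul_mem' := fun c a ha => ⟨V.smul_mem c ha.1, by simp [ha.2.1], by
        rw [Th_smul]; exact Submodule.smul_mem _ _ ha.2.2⟩ }

omit [DecidableEq ι] in
lemma krylov (hP : Indep σ r) (V : Submodule K (NC K ι)) [FiniteDimensional K V] {d : ℕ}
    (hd : Module.finrank K V ≤ d) (hT : ∀ g ∈ V, Th σ r g ∈ V) {g : NC K ι} (hg : g ∈ V)
    (h : ∀ N ≤ d, ((Th σ r)^[N] g).coeff 1 = 0) : g = 0 := by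
  have anti : ∀ N, WW σ r V (N + 1) ≤ WW σ r V N := by
    intro N
    induction N with
    | zero => exact fun g hg => hg.1
    | succ N ih => exact fun g hg => ⟨hg.1, hg.2.1, ih hg.2.2⟩
  have sub : ∀ N, WW σ r V N ≤ V := fun N => by
    cases N with
    | zero => exact le_rfl
    | succ N => exact fun g hg => hg.1
  have key : ∀ N, WW σ r V N = ⊥ ∨ Module.finrank K (WW σ r V N) + N ≤ d := by
    intro N
    induction N with
    | zero => exact Or.inr hd
    | succ N ih =>
      rcases ih with ih | ih
      · exact Or.inl (le_bot_iff.1 (ih ▸ anti N))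
      rcases (anti N).eq_or_lt with e | e
      · refine Or.inl ((Submodule.eq_bot_iff _).2 (free hP _ (fun g hg => hg.2.1) fun g hg => ?_))
        rw [e]; exact hg.2.2
      · haveI := Submodule.finiteDimensional_of_le (sub N)
        have := Submodule.finrank_lt_finrank_of_lt e
        exact Or.inr (by omega)
  have mem : ∀ N, ∀ g ∈ V, (∀ j < N, ((Th σ r)^[j] g).coeff 1 = 0) → g ∈ WW σ r V N := by
    intro N
    induction N with
    | zero => exact fun g hg _ => hg
    | succ N ih =>
      exact fun g hg h => ⟨hg, h 0 (Nat.succ_pos _), ih _ (hT g hg) fun j hj =>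
        h (j + 1) (Nat.succ_lt_succ hj)⟩
  rcases key (d + 1) with e | e
  · have := mem (d + 1) g hg fun j hj => h j (by omega)
    rwa [e, Submodule.mem_bot] at this
  · omega

/-- nested sums -/
def S {R : Type*} [CommRing R] (ρ : ℕ → ι → R) : List ι → ℕ → R
  | [], _ => 1
  | i :: w, b => ∑ a ∈ range b, ρ a i * S ρ w a

lemma iter_coeff (N : ℕ) (g : NC K ι) : ((Th σ r)^[N] g).coeff 1 =
    g.coeff.sum fun w a => σ^[N] a * S (fun a i => σ^[a] (r i)) w.toList N := by
  have hadd : ∀ (N : ℕ) (f g : NC K ι), ((f + g).coeff.sum fun w a =>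
      σ^[N] a * S (fun a i => σ^[a] (r i)) w.toList N) =
      (f.coeff.sum fun w a => σ^[N] a * S (fun a i => σ^[a] (r i)) w.toList N) +
      g.coeff.sum fun w a => σ^[N] a * S (fun a i => σ^[a] (r i)) w.toList N := fun N f g => by
    rw [coeff_add, Finsupp.sum_add_index'] <;> simp [add_mul]
  have hs : ∀ (N : ℕ) (w : FreeMonoid ι) (a : K), ((single w a : NC K ι).coeff.sum fun w a =>
      σ^[N] a * S (fun a i => σ^[a] (r i)) w.toList N) =
      σ^[N] a * S (fun a i => σ^[a] (r i)) w.toList N := fun N w a => by
    rw [coeff_single, Finsupp.sum_single_index]; simp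
  induction N generalizing g with
  | zero =>
    induction g using MonoidAlgebra.induction_linear with
    | zero => simp
    | add f g h₁ h₂ => rw [hadd, ← h₁, ← h₂]; simp
    | single w a =>
      rw [hs]
      induction w using FreeMonoid.casesOn with
      | one => simp [S]
      | of_mul j w =>
        have : (single (FreeMonoid.of j * w) a : NC K ι).coeff 1 = 0 := by
          rw [coeff_single, Finsupp.single_eq_of_ne]
          intro h
          have := congrArg FreeMonoid.length h
          simp at this; omega
        simp [S, this]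
  | succ N ih =>
    rw [Function.iterate_succ_apply, ih]
    induction g using MonoidAlgebra.induction_linear with
    | zero => simp [Th_zero]
    | add f g h₁ h₂ => rw [Th_add, hadd, hadd, h₁, h₂]
    | single w a =>
      rw [hs, Th, mapRingHom_single]
      induction w using FreeMonoid.casesOn with
      | one => simp only [D_one, smul_zero, sum_const_zero, add_zero, hs]; simp [S]
      | of_mul j w =>
        simp only [D_cons, smul_ite, smul_zero, sum_ite_eq', mem_univ, if_true, smul_single]
        rw [hadd, hs, hs]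
        simp [S, sum_range_succ]; ring

/-- cleared denominators -/
def Sh {R : Type*} [CommRing R] (δ : ℕ → ι → R) : ℕ → List ι → R
  | 0, [] => 1
  | 0, _ :: _ => 0
  | b + 1, [] => Sh δ b [] * ∏ j, δ b j
  | b + 1, i :: w => Sh δ b (i :: w) * ∏ j, δ b j + Sh δ b w * ∏ j ∈ univ.erase i, δ b j

lemma Sh_eq {R : Type*} [CommRing R] {δ ρ : ℕ → ι → R} (h : ∀ a i, δ a i * ρ a i = 1) (b : ℕ)
    (w : List ι) : Sh δ b w = Sh δ b [] * S ρ w b := by
  induction b generalizing w with
  | zero => cases w <;> simp [Sh, S]
  | succ b ih =>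
    cases w with
    | nil => simp [S]
    | cons i w =>
      rw [Sh, Sh, ih, ih w, S, S, sum_range_succ, ← mul_prod_erase univ _ (mem_univ i)]
      linear_combination (-(Sh δ b [] * S ρ w b * ∏ j ∈ univ.erase i, δ b j)) * h b i

lemma Sh_map {R R' : Type*} [CommRing R] [CommRing R'] (κ : R →+* R') (δ : ℕ → ι → R) (b : ℕ)
    (w : List ι) : κ (Sh δ b w) = Sh (fun a i => κ (δ a i)) b w := by
  induction b generalizing w with
  | zero => cases w <;> simp [Sh]
  | succ b ih => cases w <;> simp [Sh, ih]

lemma Sh_ne {R : Type*} [CommRing R] [IsDomain R] {δ : ℕ → ι → R} (h : ∀ a i, δ a i ≠ 0) (b : ℕ) :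
    Sh δ b [] ≠ 0 := by
  induction b with
  | zero => simp [Sh]
  | succ b ih => exact mul_ne_zero ih (prod_ne_zero_iff.2 fun i _ => h b i)

lemma Sh_deg {R : Type*} [CommRing R] {δ : ℕ → ι → Polynomial R} {e N : ℕ}
    (h : ∀ a < N, ∀ i, (δ a i).natDegree ≤ e) (b : ℕ) (hb : b ≤ N) (w : List ι) :
    (Sh δ b w).natDegree ≤ b * (Fintype.card ι * e) := by
  induction b generalizing w with
  | zero => cases w <;> simp [Sh]
  | succ b ih =>
    have p : ∀ s : Finset ι, (∏ j ∈ s, δ b j).natDegree ≤ Fintype.card ι * e := fun s =>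
      (Polynomial.natDegree_prod_le _ _).trans ((sum_le_card_nsmul _ _ e fun j _ =>
        h b hb j).trans (Nat.mul_le_mul_right _ (card_le_univ s)))
    have q : ∀ (w : List ι) (s : Finset ι), (Sh δ b w * ∏ j ∈ s, δ b j).natDegree ≤
        (b + 1) * (Fintype.card ι * e) := fun w s =>
      Polynomial.natDegree_mul_le.trans (by have := ih (by omega) w; have := p s; linarith)
    cases w with
    | nil => exact q _ _
    | cons i w => exact (Polynomial.natDegree_add_le _ _).trans (max_le (q _ _) (q _ _))

end Vale.Agent.P314
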