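import Mathlib

namespace Vale.Agent.P314.PIT

/-- Noncommutative formulas over `F` in the variables `x_i`, `i : Fin n`. -/
inductive Formula (F : Type*) (n : ℕ) where
  | var (i : Fin n) : Formula F n
  | const (a : F) : Formula F n
  | add (φ ψ : Formula F n) : Formula F n
  | mul (φ ψ : Formula F n) : Formula F n

variable {F : Type*} {n : ℕ}

/-- Total number of vertices, leaves included. -/
def Formula.size : Formula F n → ℕ
  | .var _ => 1
  | .const _ => 1
  | .add φ ψ => φ.size + ψ.size + 1
  | .mul φ ψ => φ.size + ψ.size + 1

/-- The element of the free associative algebra computed by a formula. -/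
noncomputable def Formula.eval [Field F] : Formula F n → FreeAlgebra F (Fin n)
  | .var i => FreeAlgebra.ι F i
  | .const a => algebraMap F _ a
  | .add φ ψ => φ.eval + ψ.eval
  | .mul φ ψ => φ.eval * ψ.eval

/-- A dimension `d` and `n` matrices of size `d × d`. -/
structure Tuple (F : Type*) (n : ℕ) where
  d : ℕ
  T : Fin n → Matrix (Fin d) (Fin d) F

/-- Every nonzero polynomial computed by a formula of size at most `s` is nonzero at some
tuple of `H`. -/
def IsHitting [Field F] (s : ℕ) (H : List (Tuple F n)) : Prop :=
  ∀ φ : Formula F n, φ.size ≤ s → φ.eval ≠ 0 → ∃ P ∈ H, FreeAlgebra.lift F P.T φ.eval ≠ 0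

/-- The input `(n, s)` in unary. -/
def encIn (p : ℕ × ℕ) : List Bool := List.replicate p.1 true ++ false :: List.replicate p.2 true

/-- Self-delimiting form of a binary string. -/
def delim (l : List Bool) : List Bool := (l.flatMap fun b => [true, b]) ++ [false]

/-- The dimension in unary, then the codes of all entries, matrix by matrix, row by row. -/
def encTuple (c : F → List Bool) (P : Tuple F n) : List Bool :=
  List.replicate P.d true ++ false :: (List.finRange n).flatMap fun i =>
    (List.finRange P.d).flatMap fun x => (List.finRange P.d).flatMap fun y => delim (c (P.T i x y))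

/-- A list of tuples as a binary string. -/
def encSet (c : F → List Bool) (H : List (Tuple F n)) : List Bool :=
  (H.flatMap fun P => true :: encTuple c P) ++ [false]

end Vale.Agent.P314.PIT
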