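import Vale.Agent.P314.Alg

namespace Vale.Agent.P314

open Polynomial Finset

variable {k : Type*} [Field k]

lemma sg_inj (q : kˣ) : Function.Injective
    ((algebraMap k[X] (FractionRing k[X])).comp (compRingHom (C (q : k) * X))) :=
  (IsFractionRing.injective k[X] (FractionRing k[X])).comp
    ((injective_iff_map_eq_zero (compRingHom (C (q : k) * X))).2 fun _ hp =>
      (comp_C_mul_X_eq_zero_iff (mem_nonZeroDivisors_of_ne_zero q.ne_zero)).1 hp)

noncomputable def sg (q : kˣ) : FractionRing k[X] →+* FractionRing k[X] :=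
  IsFractionRing.lift (sg_inj q)

lemma sg_alg (q : kˣ) (p : k[X]) :
    sg q (algebraMap _ _ p) = algebraMap _ _ (p.comp (C (q : k) * X)) :=
  IsFractionRing.lift_algebraMap (sg_inj q) p

lemma sg_inv (q : kˣ) (h : FractionRing k[X]) : sg q⁻¹ (sg q h) = h := by
  have : (sg q⁻¹).comp (sg q) = RingHom.id _ := IsFractionRing.ringHom_ext (A := k[X]) fun p => by
    simp only [RingHom.comp_apply, sg_alg, RingHom.id_apply, comp_assoc, mul_comp, C_comp, X_comp]
    rw [← mul_assoc, ← C_mul]; simp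
  exact congrArg (fun f : _ →+* _ => f h) this

def Reg (b : k) (h : FractionRing k[X]) : Prop :=
  ∃ p d : k[X], d.eval b ≠ 0 ∧ h * algebraMap _ _ d = algebraMap _ _ p

lemma Reg.add {b : k} {f g : FractionRing k[X]} (hf : Reg b f) (hg : Reg b g) : Reg b (f + g) := by
  obtain ⟨p, d, h1, h2⟩ := hf
  obtain ⟨p', d', h1', h2'⟩ := hg
  refine ⟨p * d' + p' * d, d * d', by simp [h1, h1'], ?_⟩
  simp only [map_add, map_mul, ← h2, ← h2']; ring

lemma Reg.mul {b : k} {f g : FractionRing k[X]} (hf : Reg b f) (hg : Reg b g) : Reg b (f * g) := by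
  obtain ⟨p, d, h1, h2⟩ := hf
  obtain ⟨p', d', h1', h2'⟩ := hg
  refine ⟨p * p', d * d', by simp [h1, h1'], ?_⟩
  simp only [map_mul, ← h2, ← h2']; ring

lemma Reg.neg {b : k} {f : FractionRing k[X]} (hf : Reg b f) : Reg b (-f) := by
  obtain ⟨p, d, h1, h2⟩ := hf
  exact ⟨-p, d, h1, by simp [← h2]⟩

lemma Reg.sub {b : k} {f g : FractionRing k[X]} (hf : Reg b f) (hg : Reg b g) : Reg b (f - g) := by
  rw [sub_eq_add_neg]; exact hf.add hg.neg

lemma Reg.sum {ι : Type*} {b : k} (s : Finset ι) {f : ι → FractionRing k[X]}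
    (h : ∀ i ∈ s, Reg b (f i)) : Reg b (∑ i ∈ s, f i) :=
  sum_induction _ _ (fun _ _ => Reg.add) ⟨0, 1, by simp, by simp⟩ h

lemma Reg.sg {b : k} {q : kˣ} {f : FractionRing k[X]} (hf : Reg (q * b) f) : Reg b (sg q f) := by
  obtain ⟨p, d, h1, h2⟩ := hf
  refine ⟨p.comp (C (q : k) * X), d.comp (C (q : k) * X), by simpa [eval_comp] using h1, ?_⟩
  rw [← sg_alg, ← sg_alg, ← map_mul, h2]

lemma Reg.of_sg {b : k} {q : kˣ} {f : FractionRing k[X]} (hf : Reg b (P314.sg q f)) :
    Reg (q * b) f := by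
  rw [← sg_inv q f]
  exact Reg.sg (by simpa using hf)

lemma reg_fin (f : FractionRing k[X]) : {b | ¬ Reg b f}.Finite := by
  classical
  obtain ⟨p, d, hd, rfl⟩ := IsFractionRing.div_surjective (A := k[X]) f
  have hd' := nonZeroDivisors.ne_zero hd
  refine (d.roots.toFinset.finite_toSet).subset fun b hb => ?_
  by_contra h
  refine hb ⟨p, d, fun h' => h (by simp [hd', h']), div_mul_cancel₀ _ ?_⟩
  exact (map_ne_zero_iff _ (IsFractionRing.injective _ _)).2 hd'

lemma reg_inv {c b : k} : Reg b (algebraMap k[X] (FractionRing k[X]) (1 - C c * X))⁻¹ ↔ c * b ≠ 1 := by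
  have h0 : algebraMap k[X] (FractionRing k[X]) (1 - C c * X) ≠ 0 :=
    (map_ne_zero_iff _ (IsFractionRing.injective _ _)).2 fun h => by
      simpa using congrArg (eval 0) h
  refine ⟨fun ⟨p, d, h1, h2⟩ h => h1 ?_, fun h => ⟨1, 1 - C c * X, by
    simpa [sub_eq_zero] using h.symm, ?_⟩⟩
  · rw [inv_mul_eq_iff_eq_mul₀ h0, ← map_mul] at h2
    rw [IsFractionRing.injective _ _ h2]; simp [h]
  · rw [inv_mul_cancel₀ h0, map_one]

lemma indep (u : kˣ) (hu : Function.Injective fun j : ℤ => u ^ j) (n : ℕ) :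
    Indep (sg (u ^ n)) fun i : Fin n =>
      (algebraMap k[X] (FractionRing k[X]) (1 - C ((u : k) ^ (i : ℕ)) * X))⁻¹ := by
  intro c g hc h i0
  by_contra hne
  have hn : 0 < n := i0.pos
  set pt : ℤ → k := fun j => ((u ^ (n * j - i0 : ℤ) : kˣ) : k) with hpt
  have pt_succ : ∀ j, pt (j + 1) = ((u ^ n : kˣ) : k) * pt j := fun j => by
    simp only [hpt]
    rw [← Units.val_mul, ← zpow_natCast, ← zpow_add]; congr 2; ring
  have pt_inj : Function.Injective pt := fun a b hab => by
    have := hu (Units.ext hab)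
    have : (n : ℤ) * a = n * b := by linarith
    exact mul_left_cancel₀ (by exact_mod_cast hn.ne') this
  have fin : ∀ f, {j | ¬ Reg (pt j) f}.Finite := fun f => (reg_fin f).preimage pt_inj.injOn
  have down : ∀ (f : FractionRing k[X]) (j0 : ℤ), (∀ j, j0 ≤ j → Reg (pt (j + 1)) f → Reg (pt j) f) →
      Reg (pt j0) f := fun f j0 hf => by
    by_contra h0
    obtain ⟨j, hj, hmax⟩ := ((fin f).inter_of_left {j | j0 ≤ j}).exists_maximal ⟨j0, h0, le_refl j0⟩
    refine hj.1 (hf j hj.2 ?_)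
    by_contra h1
    have := hmax (y := j + 1) ⟨h1, by have := hj.2; simp only [Set.mem_setOf_eq] at *; omega⟩
      (by omega)
    omega
  have up : ∀ (f : FractionRing k[X]) (j0 : ℤ), (∀ j, j < j0 → Reg (pt j) f → Reg (pt (j + 1)) f) →
      Reg (pt j0) f := fun f j0 hf => by
    by_contra h0
    obtain ⟨j, hj, hmin⟩ := ((fin f).inter_of_left {j | j ≤ j0}).exists_minimal ⟨j0, h0, le_refl j0⟩
    have hj2 : j ≤ j0 := hj.2
    refine hj.1 (by
      have := hf (j - 1) (by omega) (by
        by_contra h1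
        have := hmin (y := j - 1) ⟨h1, by simp only [Set.mem_setOf_eq]; omega⟩ (by omega)
        omega)
      rwa [sub_add_cancel] at this)
  have fixed : ∀ f, sg (u ^ n) f = f → ∀ j, Reg (pt j) f := fun f hf j0 =>
    down f j0 fun j _ h => by rw [pt_succ] at h; rw [← hf]; exact h.sg
  have rr : ∀ (i : Fin n) (j : ℤ), ¬ (i = i0 ∧ j = 0) → Reg (pt j)
      (algebraMap k[X] (FractionRing k[X]) (1 - C ((u : k) ^ (i : ℕ)) * X))⁻¹ := fun i j hij => by
    refine reg_inv.2 fun h => hij ?_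
    have : u ^ ((i : ℤ) + (n * j - i0)) = u ^ (0 : ℤ) := by
      ext; rw [zpow_add, zpow_natCast]; simpa [hpt] using h
    have e : (i : ℤ) + (n * j - i0) = 0 := hu this
    have h1 := i.2
    have h2 := i0.2
    have hj : j = 0 := by
      by_contra hj
      rcases lt_or_gt_of_ne hj with hj | hj <;> nlinarith
    subst hj
    exact ⟨Fin.ext (by omega), rfl⟩
  set H := ∑ i : Fin n, (algebraMap k[X] (FractionRing k[X]) (1 - C ((u : k) ^ (i : ℕ)) * X))⁻¹ * c i
    with hH
  have rH : ∀ j ≠ 0, Reg (pt j) H := fun j hj =>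
    Reg.sum _ fun i _ => (rr i j fun h => hj h.2).mul (fixed _ (hc i) j)
  have g1 : Reg (pt 1) g := down g 1 fun j hj h' => by
    rw [pt_succ] at h'
    rw [show g = sg (u ^ n) g + H by linear_combination -h]
    exact h'.sg.add (rH j (by omega))
  have g0 : Reg (pt 0) g := up g 0 fun j hj h' => by
    rw [pt_succ]
    refine Reg.of_sg ?_
    rw [show sg (u ^ n) g = g - H by linear_combination h]
    exact h'.sub (rH j (by omega))
  have rH0 : Reg (pt 0) H := by
    rw [show H = g - sg (u ^ n) g by linear_combination h]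
    refine g0.sub (Reg.sg ?_)
    rw [← pt_succ]; exact g1
  rw [hH, ← add_sum_erase _ _ (mem_univ i0)] at rH0
  have r1 := (rH0.sub (Reg.sum (univ.erase i0) fun i hi =>
    (rr i 0 fun h => (mem_erase.1 hi).1 h.1).mul (fixed _ (hc i) 0))).mul (fixed (c i0)⁻¹ (by rw [map_inv₀, hc]) 0)
  rw [add_sub_cancel_right, mul_assoc, mul_inv_cancel₀ hne, mul_one, reg_inv] at r1
  apply r1
  simp [hpt]

lemma sg_iter (q : kˣ) (c : k) (a : ℕ) :
    (sg q)^[a] (algebraMap k[X] (FractionRing k[X]) (1 - C c * X))⁻¹ =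
      (algebraMap k[X] (FractionRing k[X]) (1 - C (c * q ^ a) * X))⁻¹ := by
  induction a with
  | zero => simp
  | succ a ih =>
    rw [Function.iterate_succ_apply', ih, map_inv₀, sg_alg]
    simp [pow_succ, mul_assoc]

/-- Kronecker substitution -/
noncomputable def kr (R : Type*) [CommRing R] (M : ℕ) : R[X][X] →+* R[X] :=
  eval₂RingHom (expand R M).toRingHom X

lemma kr_inj {R : Type*} [CommRing R] {M : ℕ} {p : R[X][X]} (hp : p.natDegree < M)
    (h : kr R M p = 0) : p = 0 := by
  have hM : 0 < M := by omega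
  ext j a
  by_cases hj : j < M
  · have := congrArg (coeff · (M * a + j)) h
    simp only [kr, coe_eval₂RingHom, eval₂_eq_sum_range' _ hp, finset_sum_coeff, coeff_mul_X_pow',
      coeff_zero] at this
    rw [sum_eq_single j (fun i hi hij => ?_) (by simp [hj])] at this
    · simpa [coeff_expand_mul' hM] using this
    · split_ifs with h1
      · refine (coeff_expand hM _ _).trans (if_neg fun hd => hij ?_)
        have h2 : (M * a + j) % M = i % M := ((Nat.modEq_iff_dvd' h1).2 hd).symm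
        rw [Nat.mul_add_mod, Nat.mod_eq_of_lt hj, Nat.mod_eq_of_lt (mem_range.1 hi)] at h2
        exact h2.symm
      · rfl
  · rw [coeff_eq_zero_of_natDegree_lt (p := p) (by omega)]; simp

end Vale.Agent.P314
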