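import Vale.Agent.P314.Fld
import Vale.Agent.P314.Defs

namespace Vale.Agent.P314

open MonoidAlgebra Finset PIT Polynomial

variable {F : Type*} [Field F] {n : ℕ}

lemma space {K : Type*} [Field K] (j : F →+* K) (σ : K →+* K) (hσ : ∀ a, σ (j a) = j a)
    (φ : Formula F n) : ∃ V : Submodule K (NC K (Fin n)), FiniteDimensional K V ∧
      Module.finrank K V ≤ φ.size + 1 ∧
      mapRingHom _ j (FreeAlgebra.equivMonoidAlgebraFreeMonoid φ.eval) ∈ V ∧
      (∀ i, ∀ g ∈ V, D i g ∈ V) ∧ ∀ g ∈ V, mapRingHom _ σ g ∈ V := by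
  have leaf : ∀ w : FreeMonoid (Fin n), (∀ i, D i (single w 1 : NC K (Fin n)) ∈
      Submodule.span K {(single w 1 : NC K (Fin n)), single 1 1}) →
      ∃ V : Submodule K (NC K (Fin n)), FiniteDimensional K V ∧ Module.finrank K V ≤ 1 + 1 ∧
      (∀ a, single w a ∈ V) ∧ (∀ i, ∀ g ∈ V, D i g ∈ V) ∧ ∀ g ∈ V, mapRingHom _ σ g ∈ V := by
    classical
    intro w hw
    refine ⟨Submodule.span K {single w 1, single 1 1}, FiniteDimensional.span_of_finite _
      (Set.toFinite _), ?_, fun a => Submodule.mem_span_pair.2 ⟨a, 0, by simp⟩, fun i g hg => ?_,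
      fun g hg => ?_⟩
    · refine (finrank_span_le_card _).trans ?_
      rw [Set.toFinset_insert, Set.toFinset_singleton]
      exact card_le_two
    · obtain ⟨a, b, rfl⟩ := Submodule.mem_span_pair.1 hg
      rw [map_add, map_smul, map_smul, D_one, smul_zero, add_zero]
      exact Submodule.smul_mem _ _ (hw i)
    · obtain ⟨a, b, rfl⟩ := Submodule.mem_span_pair.1 hg
      exact Submodule.mem_span_pair.2 ⟨σ a, σ b, by simp⟩
  induction φ with
  | var i =>
    obtain ⟨V, h1, h2, h3, h4⟩ := leaf (FreeMonoid.of i) fun i' => by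
      have := D_cons (K := K) i' i 1 1
      rw [mul_one] at this
      rw [this]
      split_ifs
      · exact Submodule.subset_span (by simp)
      · exact Submodule.zero_mem _
    refine ⟨V, h1, h2, ?_, h4⟩
    simpa [Formula.eval, FreeAlgebra.equivMonoidAlgebraFreeMonoid] using h3 1
  | const a =>
    obtain ⟨V, h1, h2, h3, h4⟩ := leaf 1 fun i' => by rw [D_one]; exact Submodule.zero_mem _
    refine ⟨V, h1, h2, ?_, h4⟩
    simpa [Formula.eval] using h3 (j a)
  | add φ ψ ih1 ih2 =>
    obtain ⟨V, a1, a2, a3, a4, a5⟩ := ih1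
    obtain ⟨W, b1, b2, b3, b4, b5⟩ := ih2
    refine ⟨V ⊔ W, inferInstance, ?_, ?_, fun i g hg => ?_, fun g hg => ?_⟩
    · have := Submodule.finrank_add_le_finrank_add_finrank V W
      simp only [Formula.size]; omega
    · rw [Formula.eval, map_add, map_add]; exact Submodule.add_mem_sup a3 b3
    · obtain ⟨v, hv, w, hw, rfl⟩ := Submodule.mem_sup.1 hg
      rw [map_add]; exact Submodule.add_mem_sup (a4 i v hv) (b4 i w hw)
    · obtain ⟨v, hv, w, hw, rfl⟩ := Submodule.mem_sup.1 hg
      rw [map_add]; exact Submodule.add_mem_sup (a5 v hv) (b5 w hw)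
  | mul φ ψ ih1 ih2 =>
    obtain ⟨V, a1, a2, a3, a4, a5⟩ := ih1
    obtain ⟨W, b1, b2, b3, b4, b5⟩ := ih2
    set y := mapRingHom _ j (FreeAlgebra.equivMonoidAlgebraFreeMonoid ψ.eval) with hy
    have hs : mapRingHom _ σ y = y := by ext w; simp [hy, hσ]
    refine ⟨V.map (LinearMap.mulRight K y) ⊔ W, inferInstance, ?_, ?_, fun i g hg => ?_,
      fun g hg => ?_⟩
    · refine (Submodule.finrank_add_le_finrank_add_finrank _ _).trans ((add_le_add
        ((Submodule.finrank_map_le _ _).trans a2) b2).trans ?_)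
      simp only [Formula.size]; omega
    · rw [Formula.eval, map_mul, map_mul]
      exact Submodule.mem_sup_left ⟨_, a3, rfl⟩
    · obtain ⟨_, ⟨v, hv, rfl⟩, w, hw, rfl⟩ := Submodule.mem_sup.1 hg
      rw [map_add, LinearMap.mulRight_apply, D_mul, add_assoc]
      exact Submodule.add_mem_sup ⟨_, a4 i v hv, rfl⟩
        (W.add_mem (W.smul_mem _ (b4 i y b3)) (b4 i w hw))
    · obtain ⟨_, ⟨v, hv, rfl⟩, w, hw, rfl⟩ := Submodule.mem_sup.1 hg
      rw [map_add, LinearMap.mulRight_apply, map_mul, hs]
      exact Submodule.add_mem_sup ⟨_, a5 v hv, rfl⟩ (b5 w hw)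

noncomputable def dl (F : Type*) [Field F] (n : ℕ) (a : ℕ) (i : Fin n) : F[X][X] :=
  1 - C (X ^ ((i : ℕ) + n * a)) * X

lemma poly_ne (φ : Formula F n) (h : φ.eval ≠ 0) : ∃ b ≤ φ.size + 1,
    ((FreeAlgebra.equivMonoidAlgebraFreeMonoid φ.eval).coeff.sum fun w a =>
      C (C a) * Sh (dl F n) b w.toList) ≠ 0 := by
  by_contra hc
  push Not at hc
  let k := FractionRing F[X]
  have hX : algebraMap F[X] k X ≠ 0 :=
    (map_ne_zero_iff _ (IsFractionRing.injective _ _)).2 X_ne_zero
  let u : kˣ := Units.mk0 _ hX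
  have hu : Function.Injective fun j : ℤ => u ^ j := by
    rw [injective_zpow_iff_not_isOfFinOrder, ← Units.isOfFinOrder_val, isOfFinOrder_iff_pow_eq_one]
    rintro ⟨m, hm, e⟩
    have : (X : F[X]) ^ m = 1 := IsFractionRing.injective F[X] k (by simpa [u] using e)
    have := congrArg natDegree this
    simp at this; omega
  let ψ : F[X][X] →+* FractionRing k[X] :=
    (algebraMap k[X] _).comp (Polynomial.mapRingHom (algebraMap F[X] k))
  let j : F →+* FractionRing k[X] := ψ.comp (C.comp C)
  have hσ : ∀ a, sg (u ^ n) (j a) = j a := fun a => by simp [j, ψ, sg_alg]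
  obtain ⟨V, a1, a2, a3, a4, a5⟩ := space j _ hσ φ
  have hP := indep u hu n
  have z := krylov hP V a2 (fun g hg => V.add_mem (a5 g hg) (V.sum_mem fun i _ =>
    V.smul_mem _ (a4 i _ (a5 g hg)))) a3 fun N hN => by
      rw [iter_coeff]
      have e := congrArg ψ (hc N hN)
      have hd : ∀ a i, ψ (dl F n a i) = algebraMap k[X] _ (1 - C ((u : k) ^ (i : ℕ) *
          ((u ^ n : kˣ) : k) ^ a) * X) := fun a i => by
        simp [ψ, dl, u, pow_add, pow_mul]
      have h0 : ∀ a i, ψ (dl F n a i) ≠ 0 := fun a i => by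
        rw [hd]
        exact (map_ne_zero_iff _ (IsFractionRing.injective _ _)).2 fun h => by
          simpa using congrArg (eval 0) h
      have key := fun w => Sh_eq (δ := fun a i => ψ (dl F n a i)) (ρ := fun a (i : Fin n) =>
        (sg (u ^ n))^[a] (algebraMap k[X] (FractionRing k[X]) (1 - C ((u : k) ^ (i : ℕ)) * X))⁻¹)
        (fun a i => by rw [sg_iter, ← hd]; exact mul_inv_cancel₀ (h0 a i)) N w
      have hQ := Sh_ne h0 N
      generalize Sh (fun a i => ψ (dl F n a i)) N [] = Q at key hQ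
      rw [Finsupp.sum, map_sum, map_zero] at e
      simp only [map_mul, Sh_map, key] at e
      refine (mul_eq_zero.1 ?_).resolve_left hQ
      rw [← e, MonoidAlgebra.coe_mapRingHom, MonoidAlgebra.coeff_map, Finsupp.sum_mapRange_index (by simp),
        Finsupp.sum, mul_sum]
      refine sum_congr rfl fun w _ => ?_
      erw [Function.iterate_fixed (hσ _)]
      rw [mul_left_comm]; rfl
  refine h (FreeAlgebra.equivMonoidAlgebraFreeMonoid.injective ?_)
  ext w
  simpa using congrArg (fun g : NC _ (Fin n) => g.coeff w) z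

def pM (n s : ℕ) : ℕ := (s + 1) * n + 1
def pL (n s : ℕ) : ℕ := (s + 1) * (n * (pM n s * (n * (s + 1)) + 1)) + 1
def pe (n s i a : ℕ) : ℕ := pM n s * (i + n * a) + 1
def bit (n s i b β a α : ℕ) : Prop := a < b ∧ α ≤ β ∧ pe n s i a ∣ β - α
instance (n s i b β a α : ℕ) : Decidable (bit n s i b β a α) := by unfold bit; infer_instance

def tup (F : Type*) [Field F] (n s : ℕ) : Tuple F n where
  d := (s + 2) * pL n s
  T i := Matrix.of fun x y =>
    if bit n s i (x / pL n s) (x % pL n s) (y / pL n s) (y % pL n s) then 1 else 0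

lemma sum_divmod {M : Type*} [AddCommMonoid M] (N L : ℕ) (g : ℕ → ℕ → M) :
    ∑ y : Fin (N * L), g (y / L) (y % L) = ∑ a ∈ range N, ∑ α ∈ range L, g a α := by
  rw [← finProdFinEquiv.sum_comp, Fintype.sum_prod_type, ← Fin.sum_univ_eq_sum_range
    (fun a => ∑ α ∈ range L, g a α)]
  refine sum_congr rfl fun a _ => ?_
  rw [← Fin.sum_univ_eq_sum_range (fun α => g a α)]
  refine sum_congr rfl fun α _ => ?_
  have := α.pos
  simp [finProdFinEquiv, Nat.add_mul_div_left _ _ this, Nat.div_eq_of_lt α.2, Nat.mod_eq_of_lt α.2]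

noncomputable def rz (F : Type*) [Field F] (e : ℕ) : PowerSeries F :=
  PowerSeries.mk fun m => if e ∣ m then 1 else 0

lemma rz_mul {e : ℕ} (he : 0 < e) : (1 - PowerSeries.X ^ e) * rz F e = 1 := by
  ext m
  rw [sub_mul, one_mul, map_sub, PowerSeries.coeff_X_pow_mul', rz, PowerSeries.coeff_mk,
    PowerSeries.coeff_mk, PowerSeries.coeff_one]
  by_cases h : e ≤ m
  · have : m ≠ 0 := by omega
    simp [h, this, Nat.dvd_sub_iff_left h dvd_rfl]
  · rcases Nat.eq_zero_or_pos m with rfl | hm
    · simp [h]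
    · have : ¬ e ∣ m := fun hd => h (Nat.le_of_dvd hm hd)
      simp [h, this, hm.ne']

lemma act (s : ℕ) (w : List (Fin n)) (x : Fin (tup F n s).d) :
    ((w.map (tup F n s).T).prod.mulVec fun y => if (y : ℕ) % pL n s = 0 then 1 else 0) x =
      PowerSeries.coeff (x % pL n s)
        (S (fun a (i : Fin n) => rz F (pe n s i a)) w (x / pL n s)) := by
  have hL : 0 < pL n s := Nat.succ_pos _
  induction w generalizing x with
  | nil => simp [S, PowerSeries.coeff_one]
  | cons i w ih =>
    rw [List.map_cons, List.prod_cons, ← Matrix.mulVec_mulVec, Matrix.mulVec, dotProduct]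
    simp only [ih]
    refine (sum_divmod (s + 2) (pL n s) fun a α =>
      (if bit n s i (x / pL n s) (x % pL n s) a α then 1 else 0) * PowerSeries.coeff α
        (S (fun a (i : Fin n) => rz F (pe n s i a)) w a)).trans ?_
    have hx : x / pL n s < s + 2 := Nat.div_lt_of_lt_mul (by rw [mul_comm]; exact x.2)
    have hβ := Nat.mod_lt x hL
    rw [S, map_sum]
    symm
    refine sum_subset_zero_on_sdiff (range_subset_range.2 hx.le) (fun a ha => ?_) fun a ha => ?_
    · have : ¬ a < x / pL n s := by simpa using (mem_sdiff.1 ha).2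
      simp [bit, this]
    · rw [mul_comm, PowerSeries.coeff_mul, Nat.sum_antidiagonal_eq_sum_range_succ
        (fun p q => PowerSeries.coeff p _ * PowerSeries.coeff q _)]
      refine sum_subset_zero_on_sdiff (range_subset_range.2 hβ) (fun α hα => ?_) fun α hα => ?_
      · have : ¬ α ≤ x % pL n s := by simpa [Nat.lt_succ_iff] using (mem_sdiff.1 hα).2
        simp [bit, this]
      · have h1 := mem_range.1 ha
        have h2 := Nat.lt_succ_iff.1 (mem_range.1 hα)
        simp [bit, h1, h2, rz, PowerSeries.coeff_mk]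

theorem hitting (s : ℕ) : IsHitting s [tup F n s] := by
  intro φ hs h
  refine ⟨_, List.mem_singleton_self _, fun h0 => ?_⟩
  obtain ⟨b, hb, hne⟩ := poly_ne φ h
  set f := FreeAlgebra.equivMonoidAlgebraFreeMonoid φ.eval with hf
  have hb' : b ≤ s + 1 := by omega
  have hL : 0 < pL n s := Nat.succ_pos _
  have e0 : FreeAlgebra.lift F (tup F n s).T φ.eval =
      MonoidAlgebra.lift F _ _ (FreeMonoid.lift (tup F n s).T) f := by
    have : FreeAlgebra.lift F (tup F n s).T = (MonoidAlgebra.lift F _ _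
        (FreeMonoid.lift (tup F n s).T)).comp
        (FreeAlgebra.equivMonoidAlgebraFreeMonoid (R := F) (X := Fin n)).toAlgHom := by
      ext i : 2
      simp [FreeAlgebra.equivMonoidAlgebraFreeMonoid]
    rw [this]; rfl
  rw [e0, MonoidAlgebra.lift_apply, Finsupp.sum] at h0
  have c0 : ∀ β < pL n s, PowerSeries.coeff β (∑ w ∈ f.coeff.support, PowerSeries.C (f.coeff w) *
      S (fun a (i : Fin n) => rz F (pe n s i a)) w.toList b) = 0 := by
    intro β hβ
    have hx : β + pL n s * b < (s + 2) * pL n s := by nlinarith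
    have := congrFun (congrArg (Matrix.mulVec · fun y : Fin (tup F n s).d =>
      if (y : ℕ) % pL n s = 0 then (1 : F) else 0) h0) ⟨_, hx⟩
    simp only [Matrix.sum_mulVec, Finset.sum_apply, Matrix.smul_mulVec, Pi.smul_apply,
      FreeMonoid.lift_apply, act, Matrix.zero_mulVec, Pi.zero_apply, smul_eq_mul] at this
    rw [Nat.add_mul_mod_self_left, Nat.mod_eq_of_lt hβ, Nat.add_mul_div_left _ _ hL,
      Nat.div_eq_of_lt hβ, zero_add] at this
    simpa [map_sum] using this
  have hk : ∀ a i, kr F (pM n s) (dl F n a i) = 1 - X ^ pe n s i a := fun a i => by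
    simp [kr, dl, pe, pow_succ, pow_mul, eval₂_pow]
  refine hne (kr_inj (M := pM n s) ?_ ?_)
  · refine (natDegree_sum_le_of_forall_le _ _ (n := (s + 1) * n) fun w _ => ?_).trans_lt
      (Nat.lt_succ_self _)
    refine (natDegree_C_mul_le _ _).trans ((Sh_deg (e := 1) (N := b) (fun a _ i => ?_) b le_rfl
      _).trans ?_)
    · unfold dl; compute_degree
    · simp only [Fintype.card_fin, mul_one]; gcongr
  · rw [Finsupp.sum, map_sum]
    simp only [map_mul, Sh_map, hk]
    have hC : ∀ a : F, kr F (pM n s) (C (C a)) = C a := fun a => by simp [kr]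
    simp only [hC]
    ext β
    by_cases hβ : β < pL n s
    · rw [← Polynomial.coeff_coe, ← coeToPowerSeries.ringHom_apply, map_sum]
      have key := fun w => Sh_eq (δ := fun a (i : Fin n) =>
        (coeToPowerSeries.ringHom (1 - X ^ pe n s i a : F[X]))) (ρ := fun a (i : Fin n) =>
        rz F (pe n s i a)) (fun a i => by
          simpa using rz_mul (F := F) (e := pe n s i a) (Nat.succ_pos _)) b w
      generalize Sh (fun a (i : Fin n) =>
        (coeToPowerSeries.ringHom (1 - X ^ pe n s i a : F[X]))) b [] = Q at key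
      simp only [map_mul, Sh_map, key]
      simp only [mul_left_comm _ Q, ← mul_sum]
      rw [PowerSeries.coeff_mul, Polynomial.coeff_zero]
      refine sum_eq_zero fun p hp => ?_
      have := c0 p.2 (by have := mem_antidiagonal.1 hp; omega)
      simp only [coeToPowerSeries.ringHom_apply, coe_C]
      rw [this, mul_zero]
    · refine coeff_eq_zero_of_natDegree_lt (lt_of_le_of_lt (natDegree_sum_le_of_forall_le _ _
        (n := (s + 1) * (n * (pM n s * (n * (s + 1)) + 1))) fun w _ => ?_) (by unfold pL at hβ; omega))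
      refine (natDegree_C_mul_le _ _).trans ((Sh_deg (e := pM n s * (n * (s + 1)) + 1) (N := b)
        (fun a ha i => ?_) b le_rfl _).trans ?_)
      · refine (natDegree_sub_le _ _).trans (max_le (by simp) ?_)
        rw [natDegree_X_pow, pe]
        have := i.2
        gcongr
        nlinarith
      · simp only [Fintype.card_fin]; gcongr

end Vale.Agent.P314
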