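import Vale.Agent.TM.Closure
import Vale.Agent.P314.Hit

namespace Vale.Agent.P314

open TM PIT List

lemma nM {f g} (hf : Nm f) (hg : Nm g) : Nm fun v => pM (f v) (g v) :=
  ((hg.add (.const 1)).mul hf).add (.const 1)

lemma nL {f g} (hf : Nm f) (hg : Nm g) : Nm fun v => pL (f v) (g v) :=
  ((hg.add (.const 1)).mul (hf.mul (((nM hf hg).mul (hf.mul (hg.add (.const 1)))).add
    (.const 1)))).add (.const 1)

theorem polyTime (F : Type*) [Field F] (c : F → List Bool) :
    ∃ M : Turing.TM2ComputableInPolyTime PIT.encIn id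
      (fun p : ℕ × ℕ => encSet c [tup F p.1 p.2]), ∀ k, Finite (M.tm.Γ k) := by
  have h0 : Cp fun v => if bit (v 5) (v 6) (v 4) (v 3) (v 2) (v 1) (v 0) then delim (c 1)
      else delim (c 0) := by
    refine Cp.ite (Pr.and (Pr.lt (.var 1) (.var 3)) (Pr.and (Pr.le (.var 0) (.var 2))
      (Pr.dvd (((nM (.var 5) (.var 6)).mul ((Nm.var 4).add ((Nm.var 5).mul (.var 1)))).add
        (.const 1)) ((Nm.var 2).sub (.var 0))))) (.lit _) (.lit _)
  have h1 := Cp.flat (f := fun l v => if bit (v 4) (v 5) (v 3) (v 2) (v 1) (v 0) l then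
    delim (c 1) else delim (c 0)) (nL (.var 4) (.var 5)) h0
  have h2 := Cp.flat (f := fun a v => (range (pL (v 3) (v 4))).flatMap fun l =>
    if bit (v 3) (v 4) (v 2) (v 1) (v 0) a l then delim (c 1) else delim (c 0))
    ((Nm.var 4).add (.const 2)) h1
  have h3 := Cp.flat (f := fun β v => (range (v 3 + 2)).flatMap fun a =>
    (range (pL (v 2) (v 3))).flatMap fun l =>
      if bit (v 2) (v 3) (v 1) (v 0) β a l then delim (c 1) else delim (c 0))
    (nL (.var 2) (.var 3)) h2
  have h4 := Cp.flat (f := fun b v => (range (pL (v 1) (v 2))).flatMap fun β =>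
    (range (v 2 + 2)).flatMap fun a => (range (pL (v 1) (v 2))).flatMap fun l =>
      if bit (v 1) (v 2) (v 0) b β a l then delim (c 1) else delim (c 0))
    ((Nm.var 2).add (.const 2)) h3
  have h5 := Cp.flat (f := fun i v => (range (v 1 + 2)).flatMap fun b =>
    (range (pL (v 0) (v 1))).flatMap fun β =>
    (range (v 1 + 2)).flatMap fun a => (range (pL (v 0) (v 1))).flatMap fun l =>
      if bit (v 0) (v 1) i b β a l then delim (c 1) else delim (c 0)) (Nm.var 0) h4
  have h6 := ((Cp.consb true ((((Nm.var 1).add (.const 2)).mul (nL (.var 0) (.var 1))).rep.app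
    (Cp.consb false h5))).app (.lit [false])).polyTime
  have e : (fun p : ℕ × ℕ => encSet c [tup F p.1 p.2]) = fun p : ℕ × ℕ =>
      true :: (replicate ((p.2 + 2) * pL p.1 p.2) true ++ false :: (range p.1).flatMap fun i =>
        (range (p.2 + 2)).flatMap fun b => (range (pL p.1 p.2)).flatMap fun β =>
        (range (p.2 + 2)).flatMap fun a => (range (pL p.1 p.2)).flatMap fun l =>
          if bit p.1 p.2 i b β a l then delim (c 1) else delim (c 0)) ++ [false] := by
    funext p
    simp only [encSet, encTuple, flatMap_cons, flatMap_nil, append_nil, tup, Matrix.of_apply]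
    congr 4
    rw [← map_coe_finRange_eq_range (n := p.1), flatMap_map]
    refine flatMap_congr fun i _ => ?_
    rw [← flatMap_divmod]
    refine flatMap_congr fun x _ => ?_
    rw [← flatMap_divmod]
    refine flatMap_congr fun y _ => ?_
    split_ifs <;> rfl
  rw [e]
  exact h6

end Vale.Agent.P314
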